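import Vale.Agent.P210.Cw.Fin
import Vale.Agent.P210.R2.H53.TwFin

open scoped Manifold ContDiff Topology
open Bundle IsManifold MeasureTheory Metric

set_option maxSynthPendingDepth 3

namespace Vale.Agent.Results.P210.ConformalBase

open Vale.Agent.P210.R2.H53 Vale.Agent.P210.Cw

/-- For all `n ≥ 3`, `p > 1` and `L` there is `Λ > 0` such that for every `D` there is `C` such
that `UW_{n+k-2}(M) ≤ C` for every Riemannian manifold `M` with scalar curvature at least `1`
which is a product `N × F` with metric `w h + k`, `h` a complete metric on the `n`-manifold `N`,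
`w` ANY positive smooth function on `N`, `k` an arbitrary family of metrics on the `k`-dimensional
fibres, if `S ≥ Scal_h` satisfies a scale invariant bound of its local `L^p` norms and
* either `M` is complete, the Ricci curvature of `h` is nonnegative, and the bound of `S` holds on
  all scales,
* or, for some `r₀ > 0`, the Ricci curvature of `h` is at least `-1 / r₀ ^ 2`, the bound of `S`
  holds on the scales up to `2 r₀`, and each chain component of `{r₀ ^ 2 w ≤ Λ}` has diameter at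
  most `D r₀`. -/
theorem result : ∀ n : ℕ, 3 ≤ n → ∀ p : ℝ, 1 < p → ∀ L : ℝ, ∃ Λ > 0, ∀ D : ℝ, ∃ C : ℝ, ∀ k : ℕ,
    ∀ (E : Type) [NormedAddCommGroup E] [NormedSpace ℝ E] [FiniteDimensional ℝ E]
      [MeasurableSpace E] [BorelSpace E]
      (V : Type) [NormedAddCommGroup V] [NormedSpace ℝ V] [FiniteDimensional ℝ V]
      (N : Type) [MetricSpace N] [ChartedSpace E N]
      [RiemannianBundle (fun x : N => TangentSpace 𝓘(ℝ, E) x)] [IsManifold 𝓘(ℝ, E) ∞ N]
      [MeasurableSpace N] [BorelSpace N]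
      (F : Type) [TopologicalSpace F] [ChartedSpace V F] [IsManifold 𝓘(ℝ, V) ∞ F]
      (M : Type) [MetricSpace M] [ChartedSpace (E × V) M]
      [RiemannianBundle (fun x : M => TangentSpace 𝓘(ℝ, E × V) x)]
      [IsManifold 𝓘(ℝ, E × V) ∞ M]
      (μ : Measure N) (w S : N → ℝ) (Ψ : N × F → M), IsProductDiffeo E V Ψ →
      IsRiem E N → IsRiem (E × V) M → CompleteSpace N → IsVol E μ →
      Module.finrank ℝ E = n → Module.finrank ℝ V = k →
      ContMDiff 𝓘(ℝ, E) 𝓘(ℝ, ℝ) ∞ w → (∀ x, 0 < w x) →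
      IsTwistedProduct E V w Ψ →
      (EmbedsLE F k ∨ ∃ g : F → Fin k → UnitAddCircle, Continuous g ∧ Function.Injective g) →
      Continuous S → (∀ x, 0 ≤ S x) → ScalLEf E N S →
      ((CompleteSpace M ∧ RicGE E N 0 ∧ ∀ x r, 0 < r →
          ∫ y in ball x r, S y ^ p ∂μ ≤ L * r ^ (-(2 * p)) * μ.real (ball x r)) ∨
        ∃ r₀ : ℝ, 0 < r₀ ∧ RicGE E N (-(1 / r₀ ^ 2)) ∧
          (∀ x r, 0 < r → r ≤ 2 * r₀ →
            ∫ y in ball x r, S y ^ p ∂μ ≤ L * r ^ (-(2 * p)) * μ.real (ball x r)) ∧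
          ∀ x y, Relation.ReflTransGen (fun a c => r₀ ^ 2 * w a ≤ Λ ∧ r₀ ^ 2 * w c ≤ Λ ∧
            dist a c ≤ 4 * r₀) x y → dist x y ≤ D * r₀) →
      ScalGE (E × V) M 1 →
      (k ≤ 1 ∨ ∃ y : F, ∀ x : N, ScalLEAt
        (pullMetric (E × V) fun v => Ψ (x, (chartAt V y).symm v)) (chartAt V y y) (1 / 2)) →
      UrysohnWidthLE M (n + k - 2) C := by
  intro n hn p hp L
  refine ⟨ΛN n p L, ΛN_pos hn hp L, fun D => ⟨CB n p L D, ?_⟩⟩
  intro k E _ _ _ _ _ V _ _ _ N _ _ _ _ _ _ F _ _ _ M _ _ _ _ μ w S Ψ hΨ hN hM hcN hμ hE hV hw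
    hw0 hT hemb hS hS0 hSc hcase hScal hF
  obtain ⟨Φ, rfl⟩ := hΨ
  obtain ⟨_, _⟩ := hN
  obtain ⟨_, _⟩ := hM
  haveI := hcN
  have h := fin E V N F M hn hp (L := L) D μ w S Φ.symm hμ hw hw0
    (isTwisted_of_isTwistedProduct (Φ := Φ.symm) hT) hE hV hemb hS hS0 hSc hcase hScal hF
  rwa [show n + k - 2 = n - 2 + k by omega]

end Vale.Agent.Results.P210.ConformalBase
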