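import Vale.Agent.P210.Cx.DefsP
import Vale.Agent.P210.Cx.DefsR
import Vale.Agent.P210.Cx.MainR

open scoped Manifold ContDiff Topology
open Bundle IsManifold MeasureTheory Metric

set_option maxSynthPendingDepth 3

namespace Vale.Agent.Results.P210.ConformalDomain

open Vale.Agent.P210.R2.H53 Vale.Agent.P210.Cw.Om

/-- (First part.) Let `n ≥ 3`, `θ < 1` and let `N` be a closed Riemannian `n`-manifold with metric
`h`. Then there is a constant `C` such that `UW_{n+k-2}(M) ≤ C`, and for every `y` in `F`
`UW_{n-2}(Ω × {y}) ≤ C` for the metric of `M` and `UW_{n-2}(Ω, w h) ≤ C`, for every complete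
Riemannian manifold `M` with scalar curvature at least `1` which is a product `Ω × F` with metric
`w h + k`, where `Ω` is ANY open subset of `N`, `w` ANY positive smooth function on `Ω`, `F` any
`k`-manifold, and `k` an arbitrary family of metrics on the fibres, such that the following condition
(F) holds with `σ = θ` (this is `ProductWidthsLE`).

(F) `k ≤ 1` and `σ ≥ 0`, or the mean of the scalar curvature of the fibre over `x` with respect
  to a fixed compactly supported probability measure on `F` is at most `σ x`, or `σ x` is at least the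
  mean with fixed weights of the scalar curvatures at finitely many points of the fibre over `x`,
  taken from sets on each of which the densities of the fibres are proportional.

So the width of `(Ω, w h)` is bounded if its stabilized scalar curvature is at least `1`: `F` may be
a torus with flat metrics `k` depending on `x`.

(Second part.) More generally, for all `n ≥ 3`, `p > 1`, `L`, `K` and `θ < 1` there is `Λ > 0` such
that for every `D` there is `C` with the same property for ANY open subset `Ω` of a complete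
`n`-manifold `N`, any `w` and any function `σ` on `Ω` in (F), if for some continuous function `S ≥ 0`
on `Ω` with `S ≥ Scal_h + w (σ - θ)` on every ball `S` or `w` satisfies a scale invariant bound of
its local `L^p` norm, and
* either this bound holds on all scales, and the Ricci curvature of `h` is nonnegative, or, more
  generally, `N` is doubling and satisfies the Poincaré inequality with constant `K` on all scales;
* or, for some `r₀ > 0`, this bound holds on the scales up to `2 r₀`, the Ricci curvature of `h` is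
  at least `-1 / r₀ ^ 2` or, more generally, `N` is doubling and satisfies the Poincaré inequality
  with constant `K` on the scales up to `4 r₀`, and the complement of `{x ∈ Ω | r₀ ^ 2 w x > Λ}` has
  dimension at most `n - 2` on the scale `r₀`: it is covered by `n - 1` sets whose chain components
  have diameter at most `D r₀`. -/
theorem result :
    (∀ n : ℕ, 3 ≤ n → ∀ θ : ℝ, θ < 1 →
    ∀ (E : Type) [NormedAddCommGroup E] [NormedSpace ℝ E] [FiniteDimensional ℝ E]
      (N : Type) [MetricSpace N] [ChartedSpace E N]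
      [RiemannianBundle (fun x : N => TangentSpace 𝓘(ℝ, E) x)] [IsManifold 𝓘(ℝ, E) ∞ N],
      IsRiem E N → CompactSpace N → Module.finrank ℝ E = n → ∃ C : ℝ,
      ∀ (k : ℕ) (Ω : Set N) (w : N → ℝ), IsOpen Ω → ContMDiffOn 𝓘(ℝ, E) 𝓘(ℝ, ℝ) ∞ w Ω →
      (∀ x ∈ Ω, 0 < w x) → ProductWidthsLE E N k Ω w (fun _ => θ) C) ∧
    (∀ n : ℕ, 3 ≤ n → ∀ p : ℝ, 1 < p → ∀ L K θ : ℝ, θ < 1 → ∃ Λ > 0, ∀ D : ℝ,
    ∃ C : ℝ, ∀ k : ℕ,
    ∀ (E : Type) [NormedAddCommGroup E] [NormedSpace ℝ E] [FiniteDimensional ℝ E]
      [MeasurableSpace E] [BorelSpace E]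
      (N : Type) [MetricSpace N] [ChartedSpace E N]
      [RiemannianBundle (fun x : N => TangentSpace 𝓘(ℝ, E) x)] [IsManifold 𝓘(ℝ, E) ∞ N]
      [MeasurableSpace N] [BorelSpace N] (μ : Measure N) (Ω : Set N) (w S σ : N → ℝ),
      IsRiem E N → CompleteSpace N → IsVol E μ → Module.finrank ℝ E = n → IsOpen Ω →
      ContMDiffOn 𝓘(ℝ, E) 𝓘(ℝ, ℝ) ∞ w Ω → (∀ x ∈ Ω, 0 < w x) →
      ContinuousOn S Ω → (∀ x ∈ Ω, 0 ≤ S x) →
      ScalLEOn E N Ω (fun x => S x - w x * (σ x - θ)) →
      (((RicGE E N 0 ∨ IsPI μ n K fun _ => True) ∧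
          ∀ x r, 0 < r → ∃ f ∈ ({S, w} : Set (N → ℝ)),
            IntegrableOn (fun y => f y ^ p) (ball x r ∩ Ω) μ ∧
            ∫ y in ball x r ∩ Ω, f y ^ p ∂μ ≤ L * r ^ (-(2 * p)) * μ.real (ball x r)) ∨
        ∃ r₀ : ℝ, 0 < r₀ ∧ (RicGE E N (-(1 / r₀ ^ 2)) ∨ IsPI μ n K fun r => r ≤ 4 * r₀) ∧
          (∀ x r, 0 < r → r ≤ 2 * r₀ → ∃ f ∈ ({S, w} : Set (N → ℝ)),
            IntegrableOn (fun y => f y ^ p) (ball x r ∩ Ω) μ ∧
            ∫ y in ball x r ∩ Ω, f y ^ p ∂μ ≤ L * r ^ (-(2 * p)) * μ.real (ball x r)) ∧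
          ∃ Z : Fin (n - 1) → Set N,
            (∀ x, (x ∈ Ω → r₀ ^ 2 * w x ≤ Λ) → ∃ i, x ∈ Z i) ∧
            ∀ i x y, Relation.ReflTransGen
              (fun a c => a ∈ Z i ∧ c ∈ Z i ∧ dist a c ≤ 4 * r₀) x y → dist x y ≤ D * r₀) →
      ProductWidthsLE E N k Ω w σ C) :=
  ⟨closedR, generalR⟩

end Vale.Agent.Results.P210.ConformalDomain
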