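import Vale.Agent.P210.Cx.SpeS

open scoped Manifold ContDiff Topology
open Bundle IsManifold MeasureTheory

set_option maxSynthPendingDepth 3

namespace Vale.Agent.Results.P210.RicciStabilized

open Vale.Agent.P210.R2.H53 Vale.Agent.P210.Cw.Om

/-- (First part.) For all `n ≥ 3` and `γ, c > 0` there are `δ > 0` and `C` such that
`UW_{n-2}(N) ≤ C` for every complete Riemannian `n`-manifold `N` with Ricci curvature at least `-δ`
whose scalar curvature is at least `c` in the weak, spectral sense
`∫ (Scal ψ² + γ |∇ψ|²) ≥ c ∫ ψ²` for all Lipschitz functions `ψ` with compact support.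

(Second part.) For all `n ≥ 3` and `c > 0` there is `δ > 0` such that for every `Λ` there is `C`,
such that `UW_{n+k-2}(M) ≤ C`, and for every `y` in `F` `UW_{n-2}(N × {y}) ≤ C` for the metric of `M`
and `UW_{n-2}(N, w h) ≤ C` (this is `ProductWidthsLE`), for every complete Riemannian manifold `M`
with scalar curvature at least `1` which is a product `N × F` with metric `w h + k`, where `h` is a
complete metric on the `n`-manifold `N` with Ricci curvature at least `-δ`, `w` a smooth function on
`N` with `0 < w ≤ Λ`, `F` ANY `k`-manifold, and `k` an arbitrary family of metrics on the fibres, such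
that the following condition holds for some function `σ` on `N` with `w (1 - σ) ≥ c`: `k ≤ 1` and
`σ ≥ 0`, or the mean of the scalar curvature of the fibre over `x` with respect to a fixed compactly
supported probability measure on `F` is at most `σ x`, or `σ x` is at least the mean with fixed
weights of the scalar curvatures at finitely many points of the fibre over `x`, taken from sets on
each of which the densities of the fibres are proportional. -/
theorem result :
    (∀ n : ℕ, 3 ≤ n → ∀ γ : ℝ, 0 < γ → ∀ c : ℝ, 0 < c → ∃ δ > 0, ∃ C : ℝ,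
    ∀ (E : Type) [NormedAddCommGroup E] [NormedSpace ℝ E] [FiniteDimensional ℝ E]
      [MeasurableSpace E] [BorelSpace E]
      (N : Type) [MetricSpace N] [ChartedSpace E N]
      [RiemannianBundle (fun x : N => TangentSpace 𝓘(ℝ, E) x)] [IsManifold 𝓘(ℝ, E) ∞ N]
      [MeasurableSpace N] [BorelSpace N] (μ : Measure N) (S : N → ℝ),
      IsRiem E N → CompleteSpace N → IsVol E μ → Module.finrank ℝ E = n →
      RicGE E N (-δ) → Continuous S → ScalGEFun E N S → SpecGE E μ S γ c →
      UrysohnWidthLE N (n - 2) C) ∧
    (∀ n : ℕ, 3 ≤ n → ∀ c : ℝ, 0 < c → ∃ δ > 0, ∀ Λ : ℝ, ∃ C : ℝ, ∀ k : ℕ,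
    ∀ (E : Type) [NormedAddCommGroup E] [NormedSpace ℝ E] [FiniteDimensional ℝ E]
      (N : Type) [MetricSpace N] [ChartedSpace E N]
      [RiemannianBundle (fun x : N => TangentSpace 𝓘(ℝ, E) x)] [IsManifold 𝓘(ℝ, E) ∞ N]
      (w σ : N → ℝ), IsRiem E N → CompleteSpace N → Module.finrank ℝ E = n →
      ContMDiff 𝓘(ℝ, E) 𝓘(ℝ, ℝ) ∞ w →
      (∀ x, 0 < w x ∧ w x ≤ Λ ∧ c ≤ w x * (1 - σ x)) → RicGE E N (-δ) →
      ProductWidthsLE E N k Set.univ w σ C) :=
  ⟨spectS, glob⟩

end Vale.Agent.Results.P210.RicciStabilized
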